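import Mathlib
import Vale.Agent.P235.Final

namespace Vale.Agent.Results.P235.Peeling

open Vale.Agent.P235

theorem result :
    (∀ (k : ℕ) (V : Type) (G : SimpleGraph V) (ℓ : Sym2 V → ℝ), PeelLE k V G ℓ →
      (∀ e ∈ G.edgeSet, 0 < ℓ e) → EmbedsL1 (pathDist G ℓ) (450 ^ k)) ∧
    (∀ (V : Type) [Finite V] (G : SimpleGraph V), G.Connected → ∀ ℓ : Sym2 V → ℝ,
      (∀ e ∈ G.edgeSet, 0 < ℓ e) → ∀ C : ℝ, 1 ≤ C → ∀ A : Set V, IsGeodesicSet G ℓ A →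
      (∀ c : (G.induce Aᶜ).ConnectedComponent,
        EmbedsL1 (pathDist ((G.induce Aᶜ).induce c.supp) (fun e => ℓ (e.map fun z => z.1.1))) C) →
      EmbedsL1 (pathDist G ℓ) (450 * C)) :=
  ⟨peel_embeds, fun _ _ _ hG _ hℓ _ hC A hA h => geo_embeds hG hℓ hC A hA h⟩

end Vale.Agent.Results.P235.Peeling
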