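import Mathlib
import Vale.Agent.P235.Final

namespace Vale.Agent.Results.P235.TwoTreedepth

open Vale.Agent.P235

theorem result :
    (∀ (k : ℕ) (V : Type) (G : SimpleGraph V), TwoTreedepthLE k V G → C1LE G (112 ^ k)) ∧
    (∀ (V : Type) [Finite V] (G : SimpleGraph V), G.Connected → ∀ (A : Finset V) (C : ℝ), 1 ≤ C →
      (∀ c : (G.induce ((A : Set V)ᶜ)).ConnectedComponent,
        C1LE ((G.induce ((A : Set V)ᶜ)).induce c.supp) C) →
      C1LE G (112 ^ A.card * C)) :=
  ⟨twoTreedepth_C1, fun _ _ _ hG A _ hC h => apex_C1 hG hC A _ rfl h⟩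

end Vale.Agent.Results.P235.TwoTreedepth
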